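import Vale.Agent.P344.H120.GTree

/-!
# Induction on the depth of a cell
-/

namespace Vale.Agent.P344.H169

variable {ι κ : Type}

/-- Depth of a cell. -/
def dpt (C : Circuit ι κ) : Option ι ⊕ C.G → ℕ := Sum.elim (fun _ => 0) C.depth

theorem dpt_lt {C : Circuit ι κ} {a : Option ι ⊕ C.G} {g : C.G}
    (h : a ∈ (C.gate g).args) : dpt C a < C.depth g := Circuit.Reads.depth_lt h

theorem cell_induction (C : Circuit ι κ) {p : Option ι ⊕ C.G → Prop}
    (h0 : p (Sum.inl none)) (h1 : ∀ i, p (Sum.inl (some i)))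
    (h2 : ∀ g, (∀ a ∈ (C.gate g).args, p a) → p (Sum.inr g)) (c : Option ι ⊕ C.G) : p c := by
  suffices h : ∀ d : ℕ, ∀ c : Option ι ⊕ C.G, dpt C c ≤ d → p c from h _ c le_rfl
  intro d
  induction d with
  | zero =>
    rintro ((_ | i) | g) hc
    · exact h0
    · exact h1 i
    · exact absurd (C.depth_pos g) (by simp only [dpt, Sum.elim_inr] at hc; omega)
  | succ d ih =>
    rintro ((_ | i) | g) hc
    · exact h0
    · exact h1 i
    · refine h2 g fun a ha => ih a ?_
      have := dpt_lt ha
      simp only [dpt, Sum.elim_inr] at hc this ⊢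
      omega

end Vale.Agent.P344.H169
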