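import Vale.Agent.P344.H169.Scal

/-!
# Cycles of the multiplication by a unit
-/

namespace Vale.Agent.P344.H169

open Finset

/-- The number of divisors is at most `2 √m`. -/
theorem card_divisors_le_two_sqrt (m : ℕ) : m.divisors.card ≤ 2 * Nat.sqrt m := by
  classical
  rcases Nat.eq_zero_or_pos m with rfl | hm
  · simp
  have hsub : m.divisors ⊆ (Finset.Icc 1 (Nat.sqrt m)) ∪
      (Finset.Icc 1 (Nat.sqrt m)).image (fun d => m / d) := by
    intro d hd
    have hdm := Nat.dvd_of_mem_divisors hd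
    have hd0 : 0 < d := Nat.pos_of_mem_divisors hd
    rw [Finset.mem_union]
    rcases Nat.lt_or_ge (Nat.sqrt m) d with h | h
    · right
      rw [Finset.mem_image]
      refine ⟨m / d, ?_, Nat.div_div_self hdm hm.ne'⟩
      rw [Finset.mem_Icc]
      have h1 : d * (m / d) = m := Nat.mul_div_cancel' hdm
      refine ⟨Nat.div_pos (Nat.le_of_dvd hm hdm) hd0, ?_⟩
      by_contra hcon
      push Not at hcon
      have h2 : m < (Nat.sqrt m + 1) * (Nat.sqrt m + 1) := Nat.lt_succ_sqrt m
      have h3 : (Nat.sqrt m + 1) * (Nat.sqrt m + 1) ≤ d * (m / d) :=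
        Nat.mul_le_mul h hcon
      omega
    · left
      exact Finset.mem_Icc.2 ⟨hd0, h⟩
  refine (Finset.card_le_card hsub).trans ((Finset.card_union_le _ _).trans ?_)
  have h1 : ((Finset.Icc 1 (Nat.sqrt m)).image (fun d => m / d)).card ≤
      (Finset.Icc 1 (Nat.sqrt m)).card := Finset.card_image_le
  rw [Nat.card_Icc] at h1 ⊢
  omega

section Orbits

variable {ι : Type} [Fintype ι] [DecidableEq ι]

/-- Representatives of the cycles of a permutation. -/
theorem exists_reps (σ : Equiv.Perm ι) (w : ℕ → ℕ) :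
    ∃ S : Finset ι, (∀ j, ∃ k ∈ S, ∃ t : ℕ, (σ ^ t) j = k) ∧
      ∑ k ∈ S, Function.minimalPeriod σ k * w (Function.minimalPeriod σ k) =
        ∑ j, w (Function.minimalPeriod σ j) := by
  classical
  let H := Subgroup.zpowers σ
  let Q := MulAction.orbitRel.Quotient H ι
  let out : Q → ι := Quotient.out
  have hinj : Function.Injective out := Quotient.out_injective
  have hmk : ∀ j : ι, ∃ z : ℤ, (σ ^ z) j = out (Quotient.mk'' j) := by
    intro j
    have h1 : (MulAction.orbitRel H ι) (out (Quotient.mk'' j)) j := Quotient.mk_out j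
    rw [MulAction.orbitRel_apply, MulAction.mem_orbit_iff] at h1
    obtain ⟨⟨s, hs⟩, h⟩ := h1
    obtain ⟨z, rfl⟩ := Subgroup.mem_zpowers_iff.1 hs
    exact ⟨z, h⟩
  refine ⟨Finset.univ.image out, ?_, ?_⟩
  · intro j
    refine ⟨out (Quotient.mk'' j), Finset.mem_image_of_mem _ (Finset.mem_univ _), ?_⟩
    obtain ⟨z, hz⟩ := hmk j
    have hmem : σ ^ z ∈ Submonoid.powers σ := by
      rw [mem_powers_iff_mem_zpowers]
      exact Subgroup.mem_zpowers_iff.2 ⟨z, rfl⟩
    obtain ⟨t, ht⟩ := hmem
    refine ⟨t, ?_⟩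
    rw [← hz]
    exact congrArg (fun s : Equiv.Perm ι => s j) ht
  · rw [Finset.sum_image (fun a _ b _ h => hinj h)]
    have hper : ∀ j k : ι, MulAction.orbitRel H ι j k →
        Function.minimalPeriod σ j = Function.minimalPeriod σ k := by
      intro j k hjk
      have h1 : MulAction.orbit H j = MulAction.orbit H k := by
        rw [MulAction.orbitRel_apply] at hjk
        exact MulAction.orbit_eq_iff.2 hjk
      have h2 := MulAction.minimalPeriod_eq_card (a := σ) (b := j)
      have h3 := MulAction.minimalPeriod_eq_card (a := σ) (b := k)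
      have e2 : Function.minimalPeriod σ j = Fintype.card (MulAction.orbit H j) := h2
      have e3 : Function.minimalPeriod σ k = Fintype.card (MulAction.orbit H k) := h3
      rw [e2, e3]
      exact Fintype.card_congr (Equiv.setCongr h1)
    rw [← Finset.sum_fiberwise_of_maps_to (s := (Finset.univ : Finset ι))
      (t := (Finset.univ : Finset Q)) (g := fun j => (Quotient.mk'' j : Q))
      (fun _ _ => Finset.mem_univ _)]
    refine Finset.sum_congr rfl fun q _ => ?_
    have hc : ∀ j ∈ Finset.univ.filter (fun j : ι => (Quotient.mk'' j : Q) = q),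
        w (Function.minimalPeriod σ j) = w (Function.minimalPeriod σ (out q)) := by
      intro j hj
      have hj' : (Quotient.mk'' j : Q) = q := (Finset.mem_filter.1 hj).2
      congr 1
      apply hper
      have : (Quotient.mk'' j : Q) = Quotient.mk'' (out q) := by
        rw [hj']
        exact (Quotient.out_eq' q).symm
      exact Quotient.eq''.1 this
    rw [Finset.sum_congr rfl hc, Finset.sum_const, smul_eq_mul]
    congr 1
    have h2 : Function.minimalPeriod σ (out q) = Fintype.card (MulAction.orbit H (out q)) :=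
      MulAction.minimalPeriod_eq_card (a := σ) (b := out q)
    rw [h2, ← Set.toFinset_card]
    congr 1
    ext j
    simp only [Set.mem_toFinset, Finset.mem_filter, Finset.mem_univ, true_and]
    rw [← MulAction.orbitRel_apply]
    constructor
    · intro h
      have h' : (Quotient.mk'' j : Q) = Quotient.mk'' (out q) := Quotient.eq''.2 h
      rw [h']
      exact Quotient.out_eq' q
    · intro h
      have : (Quotient.mk'' j : Q) = Quotient.mk'' (out q) := by
        rw [h]
        exact (Quotient.out_eq' q).symm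
      exact Quotient.eq''.1 this

end Orbits

section Mul

variable {n : ℕ}

/-- Multiplication by `g` modulo `n`. -/
def mulFun (n g : ℕ) (hn : 0 < n) (j : Fin n) : Fin n := ⟨g * j % n, Nat.mod_lt _ hn⟩

theorem exists_mulPerm (hn : 0 < n) {g : ℕ} (hg : g.Coprime n) :
    ∃ σ : Equiv.Perm (Fin n), ∀ j : Fin n, ((σ j : Fin n) : ℕ) ≡ g * j [MOD n] := by
  have hinj : Function.Injective (mulFun n g hn) := by
    intro a b hab
    have h1 : g * (a : ℕ) ≡ g * (b : ℕ) [MOD n] := congrArg Fin.val hab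
    have h2 : (a : ℕ) ≡ (b : ℕ) [MOD n] :=
      Nat.ModEq.cancel_left_of_coprime (by rw [Nat.gcd_comm]; exact hg) h1
    exact Fin.ext (Nat.ModEq.eq_of_lt_of_lt h2 a.2 b.2)
  exact ⟨Equiv.ofBijective _ (Finite.injective_iff_bijective.1 hinj),
    fun j => Nat.mod_modEq _ _⟩

theorem pow_modEq {g : ℕ} {σ : Equiv.Perm (Fin n)}
    (hσ : ∀ j : Fin n, ((σ j : Fin n) : ℕ) ≡ g * j [MOD n]) (t : ℕ) (j : Fin n) :
    (((σ ^ t) j : Fin n) : ℕ) ≡ g ^ t * j [MOD n] := by
  induction t with
  | zero => simp [Nat.ModEq]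
  | succ t ih =>
    rw [pow_succ', Equiv.Perm.mul_apply, pow_succ', mul_assoc]
    exact (hσ _).trans (ih.mul_left g)

theorem card_filter_dvd_le {c : ℕ} (hc : 0 < c) :
    (Finset.univ.filter fun j : Fin n => n ∣ c * (j : ℕ)).card ≤ c := by
  have h := Finset.card_le_card_of_injOn (s := Finset.univ.filter fun j : Fin n => n ∣ c * (j : ℕ))
    (t := Finset.range c) (fun j => c * (j : ℕ) / n) (by
      intro j _
      rw [Finset.coe_range, Set.mem_Iio]
      rw [Nat.div_lt_iff_lt_mul (lt_of_le_of_lt (Nat.zero_le _) j.2)]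
      exact Nat.mul_lt_mul_of_pos_left j.2 hc) (by
      intro a ha b hb hab
      have ha' : n ∣ c * (a : ℕ) := by simpa using ha
      have hb' : n ∣ c * (b : ℕ) := by simpa using hb
      have h1 : c * (a : ℕ) / n * n = c * (a : ℕ) := Nat.div_mul_cancel ha'
      have h2 : c * (b : ℕ) / n * n = c * (b : ℕ) := Nat.div_mul_cancel hb'
      have h3 : c * (a : ℕ) = c * (b : ℕ) := by
        rw [← h1, ← h2]
        exact congrArg (· * n) hab
      exact Fin.ext (Nat.eq_of_mul_eq_mul_left hc h3))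
  rwa [Finset.card_range] at h

/-- **Prime `n`.** -/
theorem irr_ge_prime {p : ℕ} (hp : p.Prime) (C : Circuit (Fin p) (Fin p))
    (hC : C.Comp (dftMat p)) : 2 * p ≤ C.irr.card + 3 + (p - 1).divisors.card := by
  have : Fact p.Prime := ⟨hp⟩
  have hp0 : 0 < p := hp.pos
  obtain ⟨u, hu⟩ := IsCyclic.exists_monoid_generator (α := (ZMod p)ˣ)
  set g : ℕ := (u : ZMod p).val with hgdef
  have hg : g.Coprime p := ZMod.val_coe_unit_coprime u
  have hgu : ((g : ℕ) : ZMod p) = u := by
    rw [hgdef, ZMod.natCast_val, ZMod.cast_id]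
  obtain ⟨σ, hσ⟩ := exists_mulPerm hp0 hg
  have h := irr_ge hp0 C hC hg hσ {⟨0, hp0⟩, ⟨1, hp.one_lt⟩}
    (fun k => if (k : ℕ) = 0 then 1 else p - 1) ?_ ?_ ?_
  · have hne : (⟨0, hp0⟩ : Fin p) ∉ ({⟨1, hp.one_lt⟩} : Finset (Fin p)) := by
      rw [Finset.mem_singleton, Fin.mk.injEq]
      omega
    rw [Finset.sum_insert hne, Finset.sum_singleton, Finset.card_insert_of_notMem hne,
      Finset.card_singleton] at h
    simp only [if_true, one_ne_zero, if_false, Nat.divisors_one, Finset.card_singleton] at h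
    omega
  · intro k _
    have := hp.two_le
    split_ifs <;> omega
  · intro k hk
    rw [Finset.mem_insert, Finset.mem_singleton] at hk
    rcases hk with rfl | rfl
    · have h1 := pow_modEq hσ 1 ⟨0, hp0⟩
      simp only [mul_zero] at h1
      rw [if_pos rfl]
      exact Fin.ext (Nat.ModEq.eq_of_lt_of_lt h1 (Fin.is_lt _) hp0)
    · have h1 := pow_modEq hσ (p - 1) ⟨1, hp.one_lt⟩
      have h2 : g ^ (p - 1) ≡ 1 [MOD p] := by
        rw [← ZMod.natCast_eq_natCast_iff, Nat.cast_pow, hgu]
        have := ZMod.units_pow_card_sub_one_eq_one p u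
        have h3 := congrArg (fun x : (ZMod p)ˣ => (x : ZMod p)) this
        simpa using h3
      rw [if_neg (by simp)]
      simp only [mul_one] at h1
      exact Fin.ext (Nat.ModEq.eq_of_lt_of_lt (h1.trans h2) (Fin.is_lt _) hp.one_lt)
  · intro j
    by_cases hj : (j : ℕ) = 0
    · refine ⟨⟨0, hp0⟩, by simp, 0, ?_⟩
      exact Fin.ext hj
    · refine ⟨⟨1, hp.one_lt⟩, by simp, ?_⟩
      have hjc : (j : ℕ).Coprime p := by
        rw [Nat.coprime_comm, hp.coprime_iff_not_dvd]
        exact fun hd => absurd (Nat.le_of_dvd (Nat.pos_of_ne_zero hj) hd) (by have := j.2; omega)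
      obtain ⟨t, ht⟩ := hu (ZMod.unitOfCoprime j hjc)⁻¹
      refine ⟨t, ?_⟩
      have h1 := pow_modEq hσ t j
      have h2 : g ^ t * (j : ℕ) ≡ 1 [MOD p] := by
        rw [← ZMod.natCast_eq_natCast_iff, Nat.cast_mul, Nat.cast_pow, hgu]
        have h3 : u ^ t * ZMod.unitOfCoprime j hjc = 1 := by
          have : u ^ t = (ZMod.unitOfCoprime j hjc)⁻¹ := ht
          rw [this, inv_mul_cancel]
        have h4 := congrArg (fun x : (ZMod p)ˣ => (x : ZMod p)) h3
        simpa using h4
      exact Fin.ext (Nat.ModEq.eq_of_lt_of_lt (h1.trans h2) (Fin.is_lt _) hp.one_lt)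

theorem sum_six_pow_le (D : ℕ) : 2 * ∑ L ∈ Finset.Ico 1 D, 6 ^ L ≤ 6 ^ D := by
  induction D with
  | zero => simp
  | succ D ih =>
    rcases Nat.eq_zero_or_pos D with rfl | hD
    · simp
    · rw [Finset.sum_Ico_succ_top (show 1 ≤ D from hD), pow_succ]
      omega

/-- **All `n`.** -/
theorem irr_ge_all {n : ℕ} (hn : 0 < n) (C : Circuit (Fin n) (Fin n)) (hC : C.Comp (dftMat n))
    (E : ℕ) (hE : 0 < E) : 2 * n * E ≤ C.irr.card * E + 3 * n + 6 ^ (E ^ 2) * E := by
  classical
  obtain ⟨a, n', hodd, hnn⟩ := Nat.exists_eq_two_pow_mul_odd hn.ne'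
  have hco : n'.Coprime (2 ^ a) := Nat.Coprime.pow_right a (Nat.Coprime.symm
    (Nat.coprime_two_left.2 hodd))
  obtain ⟨g, hg2, hg3⟩ := Nat.chineseRemainder hco 2 3
  have hg : g.Coprime n := by
    rw [hnn]
    refine Nat.Coprime.mul_right ?_ ?_
    · rw [Nat.Coprime, hg3.gcd_eq]
      exact Nat.Coprime.pow_right a (by norm_num)
    · rw [Nat.Coprime, hg2.gcd_eq]
      exact Nat.coprime_two_left.2 hodd
  obtain ⟨σ, hσ⟩ := exists_mulPerm hn hg
  set w : ℕ → ℕ := fun m => if m < E ^ 2 then 2 * E else 3 with hw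
  obtain ⟨S, hS, hsum⟩ := exists_reps σ w
  have hpos : ∀ k : Fin n, 0 < Function.minimalPeriod σ k := by
    intro k
    apply Function.minimalPeriod_pos_of_mem_periodicPts
    have hfin : IsOfFinOrder σ := isOfFinOrder_of_finite σ
    obtain ⟨t, ht, hst⟩ := isOfFinOrder_iff_pow_eq_one.1 hfin
    refine ⟨t, ht, ?_⟩
    rw [Function.IsPeriodicPt, Function.IsFixedPt, Equiv.Perm.iterate_eq_pow, hst]
    rfl
  have hperiod : ∀ (t : ℕ) (k : Fin n), Function.IsPeriodicPt σ t k ↔ (σ ^ t) k = k := by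
    intro t k
    rw [Function.IsPeriodicPt, Function.IsFixedPt, Equiv.Perm.iterate_eq_pow]
  have h := irr_ge hn C hC hg hσ S (fun k => Function.minimalPeriod σ k) (fun k _ => hpos k)
    (fun k _ => (hperiod _ k).1 (Function.isPeriodicPt_minimalPeriod σ k)) hS
  -- the weights
  have h1 : ∀ m : ℕ, 0 < m → (1 + m.divisors.card) * E ≤ m * w m := by
    intro m hm
    simp only [hw]
    split_ifs with hlt
    · have := Nat.card_divisors_le_self m
      nlinarith
    · push Not at hlt
      have hs : E ≤ Nat.sqrt m := Nat.le_sqrt'.2 hlt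
      have hd := card_divisors_le_two_sqrt m
      have hsm : Nat.sqrt m * Nat.sqrt m ≤ m := Nat.sqrt_le m
      nlinarith
  have h2 : (S.card + ∑ k ∈ S, (Function.minimalPeriod σ k).divisors.card) * E ≤
      ∑ j, w (Function.minimalPeriod σ j) := by
    rw [← hsum, Finset.card_eq_sum_ones, ← Finset.sum_add_distrib, Finset.sum_mul]
    exact Finset.sum_le_sum fun k _ => h1 _ (hpos k)
  -- few points of small period
  set B := Finset.univ.filter fun j : Fin n => Function.minimalPeriod σ j < E ^ 2 with hB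
  have h3 : ∑ j, w (Function.minimalPeriod σ j) ≤ 2 * E * B.card + 3 * n := by
    have e1 : ∀ j : Fin n, w (Function.minimalPeriod σ j) ≤
        (if Function.minimalPeriod σ j < E ^ 2 then 2 * E else 0) + 3 := by
      intro j
      simp only [hw]
      split_ifs <;> omega
    refine (Finset.sum_le_sum fun j _ => e1 j).trans ?_
    rw [Finset.sum_add_distrib, ← Finset.sum_filter, Finset.sum_const, Finset.sum_const,
      Finset.card_univ, Fintype.card_fin]
    simp only [smul_eq_mul]
    rw [mul_comm B.card, mul_comm n 3]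
  have h4 : B.card ≤ ∑ L ∈ Finset.Ico 1 (E ^ 2), 6 ^ L := by
    have hsub : B ⊆ (Finset.Ico 1 (E ^ 2)).biUnion fun L =>
        Finset.univ.filter fun j : Fin n => n ∣ ((2 ^ L - 1) * (3 ^ L - 1)) * (j : ℕ) := by
      intro j hj
      rw [Finset.mem_biUnion]
      refine ⟨Function.minimalPeriod σ j, Finset.mem_Ico.2 ⟨hpos j, (Finset.mem_filter.1 hj).2⟩,
        Finset.mem_filter.2 ⟨Finset.mem_univ _, ?_⟩⟩
      set L := Function.minimalPeriod σ j with hL
      have e1 : (σ ^ L) j = j := (hperiod L j).1 (Function.isPeriodicPt_minimalPeriod σ j)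
      have e2 := pow_modEq hσ L j
      rw [e1] at e2
      have key : ∀ (m b : ℕ), 1 ≤ b → m ∣ n → g ≡ b [MOD m] → m ∣ (b ^ L - 1) * (j : ℕ) := by
        intro m b hb hm hgb
        have e3 : (j : ℕ) ≡ b ^ L * j [MOD m] := (e2.of_dvd hm).trans ((hgb.pow L).mul_right _)
        have e4 : (j : ℕ) ≤ b ^ L * j := Nat.le_mul_of_pos_left _ (Nat.pos_of_ne_zero
          (pow_ne_zero _ (by omega)))
        have e5 := (Nat.modEq_iff_dvd' e4).1 e3
        rw [Nat.sub_mul, one_mul]
        exact e5
      have e6 := key n' 2 (by norm_num) ⟨2 ^ a, by rw [hnn, mul_comm]⟩ hg2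
      have e7 := key (2 ^ a) 3 (by norm_num) ⟨n', hnn⟩ hg3
      have e8 : n' * 2 ^ a ∣ ((2 ^ L - 1) * (3 ^ L - 1)) * (j : ℕ) := by
        refine Nat.Coprime.mul_dvd_of_dvd_of_dvd hco ?_ ?_
        · have : ((2 ^ L - 1) * (3 ^ L - 1)) * (j : ℕ) = ((2 ^ L - 1) * j) * (3 ^ L - 1) := by
            ring
          rw [this]
          exact e6.mul_right _
        · have : ((2 ^ L - 1) * (3 ^ L - 1)) * (j : ℕ) = ((3 ^ L - 1) * j) * (2 ^ L - 1) := by
            ring
          rw [this]
          exact e7.mul_right _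
      have e9 : n = n' * 2 ^ a := by rw [mul_comm]; exact hnn
      exact (dvd_of_eq e9).trans e8
    refine (Finset.card_le_card hsub).trans (Finset.card_biUnion_le.trans ?_)
    refine Finset.sum_le_sum fun L hL => ?_
    have hL1 : 1 ≤ L := (Finset.mem_Ico.1 hL).1
    have e2 : 1 < 2 ^ L := Nat.one_lt_two_pow (by omega)
    have e3 : 1 < 3 ^ L := Nat.one_lt_pow (by omega) (by norm_num)
    refine (card_filter_dvd_le (Nat.mul_pos (by omega) (by omega))).trans ?_
    calc (2 ^ L - 1) * (3 ^ L - 1) ≤ 2 ^ L * 3 ^ L :=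
          Nat.mul_le_mul (Nat.sub_le _ _) (Nat.sub_le _ _)
      _ = 6 ^ L := by rw [← Nat.mul_pow]
  have h5 := sum_six_pow_le (E ^ 2)
  have h6 : 2 * B.card ≤ 6 ^ (E ^ 2) := by omega
  have h7 : 2 * E * B.card ≤ 6 ^ (E ^ 2) * E := by
    calc 2 * E * B.card = 2 * B.card * E := by ring
      _ ≤ _ := Nat.mul_le_mul_right _ h6
  have h8 : 2 * n * E ≤ C.irr.card * E +
      (S.card + ∑ k ∈ S, (Function.minimalPeriod σ k).divisors.card) * E := by
    rw [← add_mul, ← add_assoc]
    exact Nat.mul_le_mul_right _ h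
  omega

end Mul

end Vale.Agent.P344.H169
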