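import Vale.Agent.P344.H169.Cyc
import Vale.Agent.P344.H518.Adds
import Vale.Agent.P344.H120.GFinal

/-!
# Explicit linear lower bounds for `L(n)`
-/

namespace Vale.Agent.P344.H169

open Finset Filter

theorem adds_add_irr_le {ι κ : Type} (C : Circuit ι κ) :
    C.adds.card + C.irr.card ≤ Fintype.card C.G := by
  rw [← H518.card_adds_add_card_muls C]
  refine Nat.add_le_add_left (Finset.card_le_card fun g hg => ?_) _
  obtain ⟨c, p, h, _⟩ := Circuit.mem_irr.1 hg
  rw [H518.muls, Finset.mem_filter, h]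
  exact ⟨Finset.mem_univ _, not_false⟩

theorem L_ge_prime {p : ℕ} (hp : p.Prime) : 5 * p ≤ L p + (p - 1).divisors.card + 7 := by
  obtain ⟨C, hC, hs⟩ := (isLeast_comp hp.one_lt.le).1
  have h1 := irr_ge_prime hp C hC
  have h2 := H518.adds_ge' hp.two_le C hC
  have h3 := adds_add_irr_le C
  rw [Nat.primeFactorsList_prime hp, List.length_singleton] at h2
  omega

theorem length_primeFactorsList_le {n : ℕ} (hn : n ≠ 0) :
    n.primeFactorsList.length ≤ Nat.log 2 n := by
  rw [Nat.le_log_iff_pow_le (by norm_num) hn]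
  have h1 : n.primeFactorsList.prod = n := Nat.prod_primeFactorsList hn
  have h2 : 2 ^ n.primeFactorsList.length ≤ n.primeFactorsList.prod :=
    List.pow_card_le_prod _ _ fun x hx => (Nat.prime_of_mem_primeFactorsList hx).two_le
  rwa [h1] at h2

/-- Explicit bounds for all `n`. -/
theorem L_ge_simple {n : ℕ} (hn : 2 ≤ n) :
    4 * n ≤ L n + 2 * n.primeFactorsList.length + n.divisors.card + 2 ∧
      4 * n ≤ L n + n / n.minFac + n.divisors.card + 3 := by
  obtain ⟨C, hC, hs⟩ := (isLeast_comp (n := n) (by omega)).1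
  have h1 := irr_ge_simple (by omega) C hC
  have h2 := H518.adds_ge' hn C hC
  have h2' := H518.adds_ge hn C hC
  have h3 := adds_add_irr_le C
  constructor <;> omega

/-- Explicit bound for all `n`, with a parameter `E`. -/
theorem L_ge_all {n : ℕ} (hn : 2 ≤ n) (E : ℕ) (hE : 0 < E) :
    5 * n * E ≤ (L n + 2 * n.primeFactorsList.length + 2 + 6 ^ (E ^ 2)) * E + 3 * n := by
  obtain ⟨C, hC, hs⟩ := (isLeast_comp (n := n) (by omega)).1
  have h1 := irr_ge_all (by omega) C hC E hE
  have h2 := H518.adds_ge' hn C hC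
  have h3 := adds_add_irr_le C
  have h4 : 3 * n * E ≤ (C.adds.card + 2 * n.primeFactorsList.length + 2) * E :=
    Nat.mul_le_mul_right _ h2
  have h5 : (C.adds.card + C.irr.card) * E ≤ L n * E := Nat.mul_le_mul_right _ (by omega)
  nlinarith

theorem L_asymp {ε : ℝ} (hε : 0 < ε) : ∀ᶠ n : ℕ in atTop, (5 - ε) * n ≤ L n := by
  obtain ⟨E, hE⟩ := exists_nat_gt (6 / ε)
  have hE0 : (0 : ℝ) < E := lt_trans (by positivity) hE
  have hEn : 0 < E := by exact_mod_cast hE0
  have hlog : Tendsto (fun n : ℕ => (Nat.log 2 n : ℝ) / n) atTop (nhds 0) := by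
    have h1 : Tendsto (fun x : ℝ => Real.log x / x) atTop (nhds 0) := by
      simpa using Real.isLittleO_log_id_atTop.tendsto_div_nhds_zero
    have h2 := (h1.comp tendsto_natCast_atTop_atTop).div_const (Real.log 2)
    rw [zero_div] at h2
    refine squeeze_zero (fun n => by positivity) (fun n => ?_) h2
    rcases Nat.eq_zero_or_pos n with rfl | hn
    · simp
    have h3 : (Nat.log 2 n : ℝ) ≤ Real.log n / Real.log 2 := by
      rw [← Real.logb]
      exact Real.natLog_le_logb n 2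
    have hn0 : (0 : ℝ) < n := by exact_mod_cast hn
    simp only [Function.comp_apply]
    rw [div_div, mul_comm (n : ℝ), ← div_div]
    exact div_le_div_of_nonneg_right h3 hn0.le
  have hev := hlog.eventually (gt_mem_nhds (show (0 : ℝ) < ε / 8 by positivity))
  obtain ⟨N, hN⟩ := exists_nat_gt ((2 + 6 ^ (E ^ 2) : ℝ) / (ε / 4))
  filter_upwards [hev, eventually_ge_atTop 2, eventually_ge_atTop N] with n h1 h2 h3
  have hn0 : (0 : ℝ) < n := by exact_mod_cast (by omega : 0 < n)
  have h4 := L_ge_all h2 E hEn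
  have h5 : (5 * n * E : ℝ) ≤
      (L n + 2 * n.primeFactorsList.length + 2 + 6 ^ (E ^ 2)) * E + 3 * n := by
    exact_mod_cast h4
  have h6 : (n.primeFactorsList.length : ℝ) ≤ Nat.log 2 n := by
    exact_mod_cast length_primeFactorsList_le (by omega)
  have h7 : (Nat.log 2 n : ℝ) ≤ ε / 8 * n := by
    rw [div_lt_iff₀ hn0] at h1
    exact h1.le
  have h8 : (2 + 6 ^ (E ^ 2) : ℝ) ≤ ε / 4 * n := by
    have : (N : ℝ) ≤ n := by exact_mod_cast h3
    rw [div_lt_iff₀ (by positivity)] at hN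
    nlinarith
  have h9 : (3 * n : ℝ) ≤ ε / 2 * n * E := by
    have : 6 < E * ε := by rwa [div_lt_iff₀ hε] at hE
    nlinarith
  have h10 : (5 * n : ℝ) * E ≤ (L n + ε * n) * E := by
    nlinarith
  have h11 := le_of_mul_le_mul_right h10 hE0
  linarith

theorem irr_asymp {ε : ℝ} (hε : 0 < ε) : ∀ᶠ n : ℕ in atTop,
    ∀ C : Circuit (Fin n) (Fin n), C.Comp (dftMat n) → (2 - ε) * n ≤ C.irr.card := by
  obtain ⟨E, hE⟩ := exists_nat_gt (6 / ε)
  have hE0 : (0 : ℝ) < E := lt_trans (by positivity) hE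
  have hEn : 0 < E := by exact_mod_cast hE0
  obtain ⟨N, hN⟩ := exists_nat_gt ((6 ^ (E ^ 2) : ℝ) / (ε / 2))
  filter_upwards [eventually_ge_atTop 2, eventually_ge_atTop N] with n h2 h3 C hC
  have hn0 : (0 : ℝ) < n := by exact_mod_cast (by omega : 0 < n)
  have h4 := irr_ge_all (by omega) C hC E hEn
  have h5 : (2 * n * E : ℝ) ≤ C.irr.card * E + 3 * n + 6 ^ (E ^ 2) * E := by
    exact_mod_cast h4
  have h8 : (6 ^ (E ^ 2) : ℝ) ≤ ε / 2 * n := by
    have : (N : ℝ) ≤ n := by exact_mod_cast h3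
    rw [div_lt_iff₀ (by positivity)] at hN
    nlinarith
  have h9 : (3 * n : ℝ) ≤ ε / 2 * n * E := by
    have : 6 < E * ε := by rwa [div_lt_iff₀ hε] at hE
    nlinarith
  have h10 : (2 * n : ℝ) * E ≤ (C.irr.card + ε * n) * E := by
    nlinarith
  have h11 := le_of_mul_le_mul_right h10 hE0
  linarith

end Vale.Agent.P344.H169
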