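import Vale.Agent.P344.H169.Base

/-!
# Multiplications by irrational constants: the potential argument
-/

namespace Vale.Agent.P344

open Finset Classical

variable {ι κ : Type} [Fintype ι] [DecidableEq ι] [Fintype κ]

/-- The gates `c p` with `c` not a rational number. -/
noncomputable def Circuit.irr {ι κ : Type} (C : Circuit ι κ) : Finset C.G :=
  Finset.univ.filter fun g => ∃ c p, C.gate g = .smul c p ∧ ∀ q : ℚ, c ≠ q

theorem Circuit.mem_irr {ι κ : Type} {C : Circuit ι κ} {g : C.G} :
    g ∈ C.irr ↔ ∃ c p, C.gate g = .smul c p ∧ ∀ q : ℚ, c ≠ q := by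
  simp [Circuit.irr]

namespace H169

/-- Value at a rational vector. -/
noncomputable def ev (v : ι → ℂ) : (ι → ℚ) →ₗ[ℚ] ℂ := Fintype.linearCombination ℚ v

omit [DecidableEq ι] in
theorem ev_apply (v : ι → ℂ) (x : ι → ℚ) : ev v x = ∑ i, (x i : ℂ) * v i := by
  rw [ev, Fintype.linearCombination_apply]
  refine Finset.sum_congr rfl fun i _ => ?_
  rw [Algebra.smul_def]
  rfl

omit [DecidableEq ι] in
theorem ev_add (v w : ι → ℂ) (x : ι → ℚ) : ev (v + w) x = ev v x + ev w x := by
  simp only [ev_apply, Pi.add_apply, mul_add, Finset.sum_add_distrib]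

omit [DecidableEq ι] in
theorem ev_sub (v w : ι → ℂ) (x : ι → ℚ) : ev (v - w) x = ev v x - ev w x := by
  simp only [ev_apply, Pi.sub_apply, mul_sub, Finset.sum_sub_distrib]

omit [DecidableEq ι] in
theorem ev_smul (c : ℂ) (v : ι → ℂ) (x : ι → ℚ) : ev (c • v) x = c * ev v x := by
  simp only [ev_apply, Pi.smul_apply, smul_eq_mul, Finset.mul_sum]
  exact Finset.sum_congr rfl fun i _ => by ring

omit [DecidableEq ι] in
theorem ev_zero (x : ι → ℚ) : ev (0 : ι → ℂ) x = 0 := by
  simp [ev_apply]

theorem ev_single (i : ι) (x : ι → ℚ) : ev (Pi.single i 1 : ι → ℂ) x = x i := by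
  rw [ev_apply, Finset.sum_eq_single i]
  · simp
  · intro j _ hj
    simp [Pi.single_eq_of_ne hj]
  · intro h
    exact absurd (Finset.mem_univ i) h

/-- The forms are rational combinations of the inputs and of the irrational scalings. -/
theorem exists_coord {C : Circuit ι κ} {f : C.G → ι → ℂ} (hf : C.IsForms f)
    (c : Option ι ⊕ C.G) :
    ∃ (t : ι → ℚ) (p : C.G → ℚ), (∀ s, s ∉ C.irr → p s = 0) ∧
      ∀ i, C.cell f c i = t i + ∑ s, (p s : ℂ) * f s i := by
  refine cell_induction C (p := fun c => ∃ (t : ι → ℚ) (p : C.G → ℚ),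
    (∀ s, s ∉ C.irr → p s = 0) ∧ ∀ i, C.cell f c i = t i + ∑ s, (p s : ℂ) * f s i) ?_ ?_ ?_ c
  · exact ⟨0, 0, fun _ _ => rfl, fun i => by simp [Circuit.cell]⟩
  · intro j
    refine ⟨Pi.single j 1, 0, fun _ _ => rfl, fun i => ?_⟩
    rcases eq_or_ne i j with rfl | hij
    · simp [Circuit.cell]
    · simp [Circuit.cell, hij]
  · intro g ih
    cases hg : C.gate g with
    | add a b =>
      rw [hg] at ih
      obtain ⟨t, p, hp, h⟩ := ih a (by simp [Gate.args])
      obtain ⟨t', p', hp', h'⟩ := ih b (by simp [Gate.args])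
      refine ⟨t + t', p + p', fun s hs => by simp [hp s hs, hp' s hs], fun i => ?_⟩
      have e : C.cell f (Sum.inr g) i = C.cell f a i + C.cell f b i := by
        rw [Circuit.cell, hf g, hg]
        rfl
      rw [e, h, h']
      simp only [Pi.add_apply, Rat.cast_add, add_mul, Finset.sum_add_distrib]
      ring
    | sub a b =>
      rw [hg] at ih
      obtain ⟨t, p, hp, h⟩ := ih a (by simp [Gate.args])
      obtain ⟨t', p', hp', h'⟩ := ih b (by simp [Gate.args])
      refine ⟨t - t', p - p', fun s hs => by simp [hp s hs, hp' s hs], fun i => ?_⟩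
      have e : C.cell f (Sum.inr g) i = C.cell f a i - C.cell f b i := by
        rw [Circuit.cell, hf g, hg]
        rfl
      rw [e, h, h']
      simp only [Pi.sub_apply, Rat.cast_sub, sub_mul, Finset.sum_sub_distrib]
      ring
    | smul c a =>
      by_cases hc : ∀ q : ℚ, c ≠ q
      · refine ⟨0, Pi.single g 1, fun s hs => ?_, fun i => ?_⟩
        · have : s ≠ g := by
            rintro rfl
            exact hs (Circuit.mem_irr.2 ⟨c, a, hg, hc⟩)
          simp [this]
        · rw [Finset.sum_eq_single g]
          · simp [Circuit.cell]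
          · intro s _ hs
            simp [hs]
          · intro h
            exact absurd (Finset.mem_univ g) h
      · push Not at hc
        obtain ⟨q, rfl⟩ := hc
        rw [hg] at ih
        obtain ⟨t, p, hp, h⟩ := ih a (by simp [Gate.args])
        refine ⟨q • t, q • p, fun s hs => by simp [hp s hs], fun i => ?_⟩
        have e : C.cell f (Sum.inr g) i = (q : ℂ) * C.cell f a i := by
          rw [Circuit.cell, hf g, hg]
          rfl
        rw [e, h, mul_add, Finset.mul_sum]
        simp only [Pi.smul_apply, smul_eq_mul, Rat.cast_mul, mul_assoc]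

/-- Where the irrational scalings of depth less than `d` vanish, the cells of depth less than `d`
are rational. -/
theorem rat_of_vanish {C : Circuit ι κ} {f : C.G → ι → ℂ} (hf : C.IsForms f) {d : ℕ}
    {x : ι → ℚ} (hx : ∀ s ∈ C.irr, C.depth s < d → ev (f s) x = 0) (c : Option ι ⊕ C.G) :
    dpt C c < d → ∃ q : ℚ, ev (C.cell f c) x = q := by
  refine cell_induction C (p := fun c => dpt C c < d → ∃ q : ℚ, ev (C.cell f c) x = q)
    ?_ ?_ ?_ c
  · intro _
    exact ⟨0, by simp [Circuit.cell, ev_zero]⟩
  · intro i _
    exact ⟨x i, by simp only [Circuit.cell]; exact ev_single i x⟩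
  · intro g ih hd
    have hd' : C.depth g < d := hd
    cases hg : C.gate g with
    | add a b =>
      rw [hg] at ih
      obtain ⟨q, hq⟩ := ih a (by simp [Gate.args])
        (lt_trans (dpt_lt (by rw [hg]; simp [Gate.args])) hd')
      obtain ⟨q', hq'⟩ := ih b (by simp [Gate.args])
        (lt_trans (dpt_lt (by rw [hg]; simp [Gate.args])) hd')
      refine ⟨q + q', ?_⟩
      rw [Circuit.cell, hf g, hg, Gate.eval, ev_add, hq, hq']
      push_cast
      ring
    | sub a b =>
      rw [hg] at ih
      obtain ⟨q, hq⟩ := ih a (by simp [Gate.args])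
        (lt_trans (dpt_lt (by rw [hg]; simp [Gate.args])) hd')
      obtain ⟨q', hq'⟩ := ih b (by simp [Gate.args])
        (lt_trans (dpt_lt (by rw [hg]; simp [Gate.args])) hd')
      refine ⟨q - q', ?_⟩
      rw [Circuit.cell, hf g, hg, Gate.eval, ev_sub, hq, hq']
      push_cast
      ring
    | smul c a =>
      by_cases hc : ∀ q : ℚ, c ≠ q
      · refine ⟨0, ?_⟩
        rw [Circuit.cell, hx g (Circuit.mem_irr.2 ⟨c, a, hg, hc⟩) hd']
        simp
      · push Not at hc
        obtain ⟨r, rfl⟩ := hc
        rw [hg] at ih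
        obtain ⟨q, hq⟩ := ih a (by simp [Gate.args])
          (lt_trans (dpt_lt (by rw [hg]; simp [Gate.args])) hd')
        refine ⟨r * q, ?_⟩
        rw [Circuit.cell, hf g, hg, Gate.eval, ev_smul, hq]
        push_cast
        ring

/-- A subspace cut out by one rational functional has codimension at most one. -/
theorem finrank_le_succ {V V' : Submodule ℚ (ι → ℚ)} (ρ : (ι → ℚ) →ₗ[ℚ] ℂ)
    (h1 : ∀ x ∈ V, ∃ q : ℚ, ρ x = q) (h2 : ∀ x ∈ V, ρ x = 0 → x ∈ V') :
    Module.finrank ℚ V ≤ Module.finrank ℚ V' + 1 := by
  let r : V →ₗ[ℚ] ℂ := ρ ∘ₗ V.subtype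
  have e := LinearMap.finrank_range_add_finrank_ker r
  have hr : Module.finrank ℚ (LinearMap.range r) ≤ 1 := by
    have hle : LinearMap.range r ≤ Submodule.span ℚ {(1 : ℂ)} := by
      rintro _ ⟨x, rfl⟩
      obtain ⟨q, hq⟩ := h1 x x.2
      rw [Submodule.mem_span_singleton]
      refine ⟨q, ?_⟩
      rw [Algebra.smul_def, mul_one]
      exact hq.symm
    refine (Submodule.finrank_mono hle).trans ?_
    exact (finrank_span_le_card ({(1 : ℂ)} : Set ℂ)).trans (by simp)
  have hk : Module.finrank ℚ (LinearMap.ker r) ≤ Module.finrank ℚ V' := by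
    let φ : LinearMap.ker r →ₗ[ℚ] V' :=
      { toFun := fun x => ⟨x.1.1, h2 x.1.1 x.1.2 x.2⟩
        map_add' := fun _ _ => rfl
        map_smul' := fun _ _ => rfl }
    refine LinearMap.finrank_le_finrank_of_injective (f := φ) ?_
    intro x y hxy
    exact Subtype.ext (Subtype.ext (congrArg (fun z : V' => (z : ι → ℚ)) hxy))
  omega

/-- The bilinear form of a matrix on rational vectors. -/
noncomputable def bil (A : Matrix κ ι ℂ) (y : κ → ℚ) (x : ι → ℚ) : ℂ :=
  ∑ j, (y j : ℂ) * ev (A j) x

/-- The `y` for which `bil A y x` is rational for all `x` in `V`. -/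
noncomputable def orthQ (A : Matrix κ ι ℂ) (V : Submodule ℚ (ι → ℚ)) : Submodule ℚ (κ → ℚ) where
  carrier := {y | ∀ x ∈ V, ∃ q : ℚ, bil A y x = q}
  zero_mem' := fun x _ => ⟨0, by simp [bil]⟩
  add_mem' := by
    intro y y' hy hy' x hx
    obtain ⟨q, hq⟩ := hy x hx
    obtain ⟨q', hq'⟩ := hy' x hx
    refine ⟨q + q', ?_⟩
    rw [Rat.cast_add, ← hq, ← hq']
    simp only [bil, Pi.add_apply, Rat.cast_add, add_mul, Finset.sum_add_distrib]
  smul_mem' := by
    intro c y hy x hx
    obtain ⟨q, hq⟩ := hy x hx
    refine ⟨c * q, ?_⟩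
    rw [Rat.cast_mul, ← hq]
    simp only [bil, Pi.smul_apply, smul_eq_mul, Rat.cast_mul, Finset.mul_sum, mul_assoc]

omit [DecidableEq ι] in
theorem mem_orthQ {A : Matrix κ ι ℂ} {V : Submodule ℚ (ι → ℚ)} {y : κ → ℚ} :
    y ∈ orthQ A V ↔ ∀ x ∈ V, ∃ q : ℚ, bil A y x = q := Iff.rfl

omit [DecidableEq ι] in
theorem orthQ_anti {A : Matrix κ ι ℂ} {V V' : Submodule ℚ (ι → ℚ)} (h : V ≤ V') :
    orthQ A V' ≤ orthQ A V := fun _ hy x hx => hy x (h hx)

/-- The rational vectors on which the irrational scalings in `I` vanish. -/
noncomputable def van (C : Circuit ι κ) (f : C.G → ι → ℂ) (I : Finset C.G) :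
    Submodule ℚ (ι → ℚ) where
  carrier := {x | ∀ s ∈ I, ev (f s) x = 0}
  zero_mem' := fun s _ => map_zero _
  add_mem' := fun {x y} hx hy s hs => by rw [map_add, hx s hs, hy s hs, add_zero]
  smul_mem' := fun c x hx s hs => by rw [map_smul, hx s hs, smul_zero]

/-- The rational combinations of outputs which do not involve the scalings outside `I`. -/
noncomputable def cov (C : Circuit ι κ) (P : κ → C.G → ℚ) (I : Finset C.G) :
    Submodule ℚ (κ → ℚ) where
  carrier := {y | ∀ s, s ∉ I → ∑ j, y j * P j s = 0}
  zero_mem' := fun s _ => by simp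
  add_mem' := fun {x y} hx hy s hs => by
    simp only [Pi.add_apply, add_mul, Finset.sum_add_distrib, hx s hs, hy s hs, add_zero]
  smul_mem' := fun c x hx s hs => by
    have := hx s hs
    simp only [Pi.smul_apply, smul_eq_mul, mul_assoc, ← Finset.mul_sum, this, mul_zero]

/-- **The potential argument.** `len` is any strictly increasing rank on the subspaces
`orthQ A V`. -/
theorem potential {C : Circuit ι κ} {f : C.G → ι → ℂ} (hf : C.IsForms f) {A : Matrix κ ι ℂ}
    (hA : ∀ j k, C.cell f (C.out j) k = A j k) (len : Submodule ℚ (κ → ℚ) → ℕ)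
    (hlen : ∀ V V' : Submodule ℚ (ι → ℚ), V ≤ V' → orthQ A V' < orthQ A V →
      len (orthQ A V') + 1 ≤ len (orthQ A V)) :
    ∃ (V : Submodule ℚ (ι → ℚ)) (W : Submodule ℚ (κ → ℚ)),
      (∀ x ∈ V, ∀ j, ∃ q : ℚ, ev (A j) x = q) ∧
      (∀ y ∈ W, ∀ x, ∃ q : ℚ, bil A y x = q) ∧
      Fintype.card ι ≤ C.irr.card + Module.finrank ℚ V ∧
      Fintype.card ι + Fintype.card κ + len (orthQ A ⊤) ≤
        C.irr.card + Module.finrank ℚ V + Module.finrank ℚ W + len (orthQ A V) := by
  have hcoord := fun j : κ => exists_coord hf (C.out j)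
  choose t P hP hexp using hcoord
  have hrow : ∀ j, A j = C.cell f (C.out j) := fun j => (funext fun k => (hA j k).symm)
  -- expansion of the bilinear form
  have hbil : ∀ (y : κ → ℚ) (x : ι → ℚ), bil A y x =
      ((∑ j, ∑ i, y j * (x i * t j i) : ℚ) : ℂ) + ∑ s, ((∑ j, y j * P j s : ℚ) : ℂ) * ev (f s) x := by
    intro y x
    have e1 : ∀ j, ev (A j) x = ((∑ i, x i * t j i : ℚ) : ℂ) + ∑ s, (P j s : ℂ) * ev (f s) x := by
      intro j
      rw [hrow, ev_apply]
      simp only [hexp j, mul_add, Finset.sum_add_distrib, ev_apply, Finset.mul_sum]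
      congr 1
      · push_cast
        rfl
      · rw [Finset.sum_comm]
        exact Finset.sum_congr rfl fun s _ => Finset.sum_congr rfl fun i _ => by ring
    simp only [bil, e1, mul_add, Finset.sum_add_distrib]
    congr 1
    · push_cast
      simp only [Finset.mul_sum]
    · simp only [Finset.mul_sum]
      rw [Finset.sum_comm]
      refine Finset.sum_congr rfl fun s _ => ?_
      push_cast
      rw [Finset.sum_mul]
      exact Finset.sum_congr rfl fun j _ => by ring
  have hrat : ∀ (I : Finset C.G) (y : κ → ℚ) (x : ι → ℚ), y ∈ cov C P I → x ∈ van C f I →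
      ∃ q : ℚ, bil A y x = q := by
    intro I y x hy hx
    refine ⟨∑ j, ∑ i, y j * (x i * t j i), (hbil y x).trans ?_⟩
    have e0 : ∑ s, ((∑ j, y j * P j s : ℚ) : ℂ) * ev (f s) x = 0 := by
      refine Finset.sum_eq_zero fun s _ => ?_
      by_cases hs : s ∈ I
      · rw [hx s hs, mul_zero]
      · rw [hy s hs, Rat.cast_zero, zero_mul]
    rw [e0, add_zero]
  -- the induction
  have key : ∀ (m : ℕ) (I : Finset C.G), I.card = m → I ⊆ C.irr →
      (∀ s ∈ I, ∀ s' ∈ C.irr, C.depth s' < C.depth s → s' ∈ I) →
      Fintype.card ι ≤ I.card + Module.finrank ℚ (van C f I) ∧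
      Fintype.card ι + len (orthQ A ⊤) + Module.finrank ℚ (cov C P I) ≤
        I.card + Module.finrank ℚ (van C f I) + len (orthQ A (van C f I)) +
          Module.finrank ℚ (cov C P ∅) := by
    intro m
    induction m with
    | zero =>
      intro I hI _ _
      obtain rfl := Finset.card_eq_zero.1 hI
      have hv : van C f ∅ = ⊤ := by
        rw [eq_top_iff]
        intro x _ s hs
        simp at hs
      rw [hv, finrank_top, Module.finrank_fintype_fun_eq_card]
      simp
    | succ m ih =>
      intro I hI hirr hini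
      obtain ⟨s, hs, hmax⟩ := Finset.exists_max_image I C.depth
        (Finset.card_pos.1 (by omega))
      have hI' := ih (I.erase s) (by rw [Finset.card_erase_of_mem hs, hI]; rfl)
        ((Finset.erase_subset _ _).trans hirr) (by
          intro a ha b hb hab
          rw [Finset.mem_erase] at ha ⊢
          refine ⟨?_, hini a ha.2 b hb hab⟩
          rintro rfl
          exact absurd (hmax a ha.2) (by omega))
      rw [Finset.card_erase_of_mem hs] at hI'
      obtain ⟨c, p, hgate, hc⟩ := Circuit.mem_irr.1 (hirr hs)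
      have hc0 : c ≠ 0 := by
        have := hc 0
        simpa using this
      have hfs : ∀ x, ev (f s) x = c * ev (C.cell f p) x := by
        intro x
        rw [hf s, hgate, Gate.eval, ev_smul]
      -- the argument of `s` is rational on the previous space
      have hargrat : ∀ x ∈ van C f (I.erase s), ∃ q : ℚ, ev (C.cell f p) x = q := by
        intro x hx
        refine rat_of_vanish hf (d := C.depth s) ?_ p
          (dpt_lt (by rw [hgate]; simp [Gate.args]))
        intro s' hs' hd
        refine hx s' (Finset.mem_erase.2 ⟨?_, hini s hs s' hs' hd⟩)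
        rintro rfl
        exact lt_irrefl _ hd
      have hvle : van C f I ≤ van C f (I.erase s) := fun x hx a ha =>
        hx a (Finset.mem_erase.1 ha).2
      have hv1 : Module.finrank ℚ (van C f (I.erase s)) ≤
          Module.finrank ℚ (van C f I) + 1 := by
        refine finrank_le_succ (ev (C.cell f p)) hargrat ?_
        intro x hx h0 a ha
        by_cases has : a = s
        · subst has
          rw [hfs, h0, mul_zero]
        · exact hx a (Finset.mem_erase.2 ⟨has, ha⟩)
      have hw1 : Module.finrank ℚ (cov C P I) ≤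
          Module.finrank ℚ (cov C P (I.erase s)) + 1 := by
        refine finrank_le_succ (ev (fun j => (P j s : ℂ))) ?_ ?_
        · intro y _
          refine ⟨∑ j, y j * P j s, ?_⟩
          rw [ev_apply]
          push_cast
          rfl
        · intro y hy h0 a ha
          by_cases has : a = s
          · subst has
            rw [ev_apply] at h0
            exact_mod_cast h0
          · exact hy a fun haI => ha (Finset.mem_erase.2 ⟨has, haI⟩)
      have hole : orthQ A (van C f (I.erase s)) ≤ orthQ A (van C f I) := orthQ_anti hvle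
      have hl0 : len (orthQ A (van C f (I.erase s))) ≤ len (orthQ A (van C f I)) := by
        rcases hole.eq_or_lt with h | h
        · rw [h]
        · have := hlen _ _ hvle h
          omega
      have hcardpos : 1 ≤ I.card := by omega
      refine ⟨by omega, ?_⟩
      by_cases hboth : (∃ x ∈ van C f (I.erase s), x ∉ van C f I) ∧
          (∃ y ∈ cov C P I, y ∉ cov C P (I.erase s))
      · obtain ⟨⟨x, hx, hx'⟩, ⟨y, hy, hy'⟩⟩ := hboth
        have hlt : orthQ A (van C f (I.erase s)) < orthQ A (van C f I) := by
          refine lt_of_le_of_ne hole fun heq => ?_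
          have hyV : y ∈ orthQ A (van C f (I.erase s)) := by
            rw [heq]
            exact fun x' hx' => hrat I y x' hy hx'
          obtain ⟨q, hq⟩ := hyV x hx
          -- the value at `s`
          obtain ⟨r, hr⟩ := hargrat x hx
          have hr0 : r ≠ 0 := by
            rintro rfl
            apply hx'
            intro a ha
            by_cases has : a = s
            · subst has
              rw [hfs, hr, Rat.cast_zero, mul_zero]
            · exact hx a (Finset.mem_erase.2 ⟨has, ha⟩)
          have hb0 : (∑ j, y j * P j s) ≠ 0 := by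
            intro h0
            apply hy'
            intro a ha
            by_cases has : a = s
            · subst has
              exact h0
            · exact hy a fun haI => ha (Finset.mem_erase.2 ⟨has, haI⟩)
          rw [hbil y x, Finset.sum_eq_single s] at hq
          · rw [hfs, hr] at hq
            set b := ∑ j, y j * P j s
            set e := ∑ j, ∑ i, y j * (x i * t j i)
            apply hc ((q - e) / (b * r))
            have hbC : (b : ℂ) ≠ 0 := by exact_mod_cast hb0
            have hrC : (r : ℂ) ≠ 0 := by exact_mod_cast hr0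
            push_cast
            rw [eq_div_iff (mul_ne_zero hbC hrC)]
            linear_combination hq
          · intro a _ has
            by_cases haI : a ∈ I
            · rw [hx a (Finset.mem_erase.2 ⟨has, haI⟩), mul_zero]
            · rw [hy a haI, Rat.cast_zero, zero_mul]
          · intro h
            exact absurd (Finset.mem_univ s) h
        have := hlen _ _ hvle hlt
        omega
      · rw [not_and_or] at hboth
        rcases hboth with h | h
        · push Not at h
          have : van C f (I.erase s) ≤ van C f I := h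
          have := Submodule.finrank_mono this
          omega
        · push Not at h
          have : cov C P I ≤ cov C P (I.erase s) := h
          have := Submodule.finrank_mono this
          omega
  refine ⟨van C f C.irr, cov C P ∅, ?_, ?_,
    (key _ C.irr rfl (Finset.Subset.refl _) (fun _ _ s' hs' _ => hs')).1, ?_⟩
  · intro x hx j
    have := rat_of_vanish hf (d := dpt C (C.out j) + 1) (x := x) (fun s hs _ => hx s hs)
      (C.out j) (Nat.lt_succ_self _)
    rwa [← hrow] at this
  · intro y hy x
    exact hrat ∅ y x hy (fun s hs => absurd hs (Finset.notMem_empty s))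
  · have h := (key _ C.irr rfl (Finset.Subset.refl _) (fun _ _ s' hs' _ => hs')).2
    have hc : cov C P C.irr = ⊤ := by
      rw [eq_top_iff]
      intro y _ s hs
      simp [hP _ s hs]
    rw [hc, finrank_top, Module.finrank_fintype_fun_eq_card] at h
    omega

end H169

end Vale.Agent.P344
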