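import Mathlib

/-!
# Lengths of modules over `ℚ[X]` given by a permutation
-/

namespace Vale.Agent.P344.H169

open Polynomial Finset

section Cyclic

variable {M : Type} [AddCommGroup M] [Module ℚ[X] M]

/-- A quotient of a cyclic module killed by an irreducible polynomial has length at most one. -/
theorem length_quot_le_one {A : Submodule ℚ[X] M} {e : M} {p : ℚ[X]} (hp : Irreducible p)
    (hA : p • e ∈ A) :
    Module.length ℚ[X] (↥(Submodule.span ℚ[X] {e}) ⧸
      A.submoduleOf (Submodule.span ℚ[X] {e})) ≤ 1 := by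
  set B := Submodule.span ℚ[X] {e} with hB
  have heB : e ∈ B := Submodule.mem_span_singleton_self e
  let Q := ↥B ⧸ A.submoduleOf B
  let ebar : Q := Submodule.Quotient.mk ⟨e, heB⟩
  have hmax : (Ideal.span {p}).IsMaximal := PrincipalIdealRing.isMaximal_of_irreducible hp
  have hsimple : IsSimpleModule ℚ[X] (ℚ[X] ⧸ Ideal.span {p}) :=
    isSimpleModule_iff_isCoatom.2 hmax.out
  have hkill : p • ebar = 0 := by
    change Submodule.Quotient.mk (p • (⟨e, heB⟩ : B)) = 0
    rw [Submodule.Quotient.mk_eq_zero]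
    exact hA
  let l : ℚ[X] →ₗ[ℚ[X]] Q := LinearMap.toSpanSingleton ℚ[X] Q ebar
  have hl : Ideal.span {p} ≤ LinearMap.ker l := by
    rw [Ideal.span_le]
    intro x hx
    rw [Set.mem_singleton_iff] at hx
    subst hx
    exact hkill
  let l' : (ℚ[X] ⧸ Ideal.span {p}) →ₗ[ℚ[X]] Q := Submodule.liftQ (Ideal.span {p}) l hl
  have hsurj : Function.Surjective l' := by
    intro y
    obtain ⟨⟨b, hb⟩, rfl⟩ := Submodule.Quotient.mk_surjective _ y
    obtain ⟨r, rfl⟩ := Submodule.mem_span_singleton.1 hb
    refine ⟨Submodule.Quotient.mk r, ?_⟩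
    rfl
  calc Module.length ℚ[X] Q ≤ Module.length ℚ[X] (ℚ[X] ⧸ Ideal.span {p}) :=
        Module.length_le_of_surjective l' hsurj
    _ = 1 := Module.length_eq_one _ _

theorem length_span_le {α : Type} [DecidableEq α] (s : Finset α) (f : α → ℚ[X])
    (hf : ∀ i ∈ s, Irreducible (f i)) : ∀ e : M, (∏ i ∈ s, f i) • e = 0 →
      Module.length ℚ[X] (Submodule.span ℚ[X] {e}) ≤ s.card := by
  induction s using Finset.induction_on with
  | empty =>
    intro e he
    rw [Finset.prod_empty, one_smul] at he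
    subst he
    rw [Submodule.span_singleton_eq_bot.2 rfl, Module.length_bot]
    exact zero_le
  | insert a s ha ih =>
    intro e he
    set B := Submodule.span ℚ[X] {e} with hB
    set A := Submodule.span ℚ[X] {f a • e} with hA
    have hAB : A ≤ B := by
      rw [hA, Submodule.span_singleton_le_iff_mem]
      exact Submodule.smul_mem _ _ (Submodule.mem_span_singleton_self e)
    have h1 : Module.length ℚ[X] A ≤ s.card := by
      refine ih (fun i hi => hf i (Finset.mem_insert_of_mem hi)) (f a • e) ?_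
      rw [smul_smul, mul_comm, ← Finset.prod_insert ha]
      exact he
    have h2 := length_quot_le_one (A := A) (e := e) (hf a (Finset.mem_insert_self a s))
      (Submodule.mem_span_singleton_self _)
    have h3 := Module.length_eq_add_of_exact (Submodule.inclusion hAB)
      (A.submoduleOf B).mkQ (Submodule.inclusion_injective hAB)
      (Submodule.mkQ_surjective _) (by
        rw [LinearMap.exact_iff, Submodule.ker_mkQ, Submodule.range_inclusion]
        rfl)
    rw [h3, Finset.card_insert_of_notMem ha, Nat.cast_add, Nat.cast_one]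
    exact add_le_add h1 h2

theorem length_span_le_divisors {L : ℕ} (hL : 0 < L) {e : M} (he : (X ^ L - 1 : ℚ[X]) • e = 0) :
    Module.length ℚ[X] (Submodule.span ℚ[X] {e}) ≤ L.divisors.card := by
  refine length_span_le L.divisors (fun d => cyclotomic d ℚ) (fun d hd => ?_) e ?_
  · exact cyclotomic.irreducible_rat (Nat.pos_of_mem_divisors hd)
  · rw [prod_cyclotomic_eq_X_pow_sub_one hL]
    exact he

end Cyclic

section Perm

variable {ι : Type} [Fintype ι] [DecidableEq ι]

/-- The operator `y ↦ y ∘ σ`. -/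
noncomputable def op (σ : Equiv.Perm ι) : (ι → ℚ) →ₗ[ℚ] (ι → ℚ) := LinearMap.funLeft ℚ ℚ σ

omit [Fintype ι] [DecidableEq ι] in
theorem op_apply (σ : Equiv.Perm ι) (y : ι → ℚ) (i : ι) : op σ y i = y (σ i) := rfl

omit [Fintype ι] [DecidableEq ι] in
theorem op_pow_apply (σ : Equiv.Perm ι) (t : ℕ) (y : ι → ℚ) (i : ι) :
    (op σ ^ t) y i = y ((σ ^ t) i) := by
  induction t generalizing y i with
  | zero => rfl
  | succ t ih =>
    rw [pow_succ, Module.End.mul_apply, ih, op_apply, pow_succ', Equiv.Perm.mul_apply]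

/-- The `ℚ[X]`-module. -/
abbrev Md (σ : Equiv.Perm ι) : Type := Module.AEval' (op σ)

/-- `y` as an element of the module. -/
noncomputable def el (σ : Equiv.Perm ι) : (ι → ℚ) ≃ₗ[ℚ] Md σ := Module.AEval'.of (op σ)

instance (σ : Equiv.Perm ι) : IsNoetherian ℚ[X] (Md σ) := by
  have : IsNoetherian ℚ (Md σ) := inferInstanceAs (IsNoetherian ℚ (ι → ℚ))
  exact isNoetherian_of_tower ℚ inferInstance

instance (σ : Equiv.Perm ι) : IsArtinian ℚ[X] (Md σ) := by
  have : IsArtinian ℚ (Md σ) := inferInstanceAs (IsArtinian ℚ (ι → ℚ))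
  exact isArtinian_of_tower ℚ inferInstance

/-- The submodule generated by a subspace. -/
noncomputable def gen (σ : Equiv.Perm ι) (U : Submodule ℚ (ι → ℚ)) : Submodule ℚ[X] (Md σ) :=
  Submodule.span ℚ[X] (el σ '' (U : Set (ι → ℚ)))

/-- `U` is stable under `y ↦ y ∘ σ`. -/
def Stable (σ : Equiv.Perm ι) (U : Submodule ℚ (ι → ℚ)) : Prop := ∀ y ∈ U, op σ y ∈ U

omit [DecidableEq ι] [Fintype ι] in
theorem mem_gen {σ : Equiv.Perm ι} {U : Submodule ℚ (ι → ℚ)} (hU : Stable σ U) {y : ι → ℚ} :
    el σ y ∈ gen σ U ↔ y ∈ U := by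
  constructor
  · intro h
    have hinv : U ∈ (Algebra.lsmul ℚ ℚ (ι → ℚ) (op σ)).invtSubmodule := fun z hz => hU z hz
    have hle : gen σ U ≤ Module.AEval.mapSubmodule ℚ (ι → ℚ) (op σ) ⟨U, hinv⟩ := by
      rw [gen, Submodule.span_le]
      rintro _ ⟨z, hz, rfl⟩
      exact (Module.AEval.mem_mapSubmodule_apply ℚ (ι → ℚ) (op σ)).2 hz
    exact (Module.AEval.mem_mapSubmodule_apply ℚ (ι → ℚ) (op σ)).1 (hle h)
  · intro h
    exact Submodule.subset_span ⟨y, h, rfl⟩

/-- The rank of a stable subspace: the length of the module. -/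
noncomputable def rk (σ : Equiv.Perm ι) (U : Submodule ℚ (ι → ℚ)) : ℕ :=
  (Order.height (gen σ U)).toNat

omit [DecidableEq ι] in
theorem rk_lt {σ : Equiv.Perm ι} {U U' : Submodule ℚ (ι → ℚ)} (hU : Stable σ U)
    (hU' : Stable σ U') (h : U < U') : rk σ U + 1 ≤ rk σ U' := by
  have hlt : gen σ U < gen σ U' := by
    refine lt_of_le_of_ne (Submodule.span_mono (Set.image_mono h.le)) fun heq => ?_
    obtain ⟨y, hy, hy'⟩ := SetLike.exists_of_lt h
    apply hy'
    rw [← mem_gen hU, heq, mem_gen hU']
    exact hy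
  have h1 := Submodule.height_strictMono hlt
  have h2 := Submodule.height_lt_top (gen σ U')
  rw [rk, rk]
  obtain ⟨b, hb⟩ := ENat.ne_top_iff_exists.1 h2.ne
  obtain ⟨a, ha⟩ := ENat.ne_top_iff_exists.1 (h1.trans h2).ne
  rw [← ha, ← hb] at h1 ⊢
  rw [ENat.toNat_natCast, ENat.toNat_natCast]
  exact_mod_cast h1

omit [DecidableEq ι] in
theorem rk_le (σ : Equiv.Perm ι) (U : Submodule ℚ (ι → ℚ)) {m : ℕ}
    (hm : Module.length ℚ[X] (Md σ) ≤ m) : rk σ U ≤ m := by
  rw [rk]
  refine ENat.toNat_le_of_le_natCast ?_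
  refine le_trans ?_ hm
  rw [Module.length_eq_height]
  exact Order.height_mono le_top

omit [DecidableEq ι] in
/-- On subspaces fixed pointwise the rank is at least the dimension. -/
theorem finrank_le_rk {σ : Equiv.Perm ι} (d : ℕ) : ∀ (K : Submodule ℚ (ι → ℚ)),
    (∀ y ∈ K, op σ y = y) → Module.finrank ℚ K = d → d ≤ rk σ K := by
  have hst : ∀ K : Submodule ℚ (ι → ℚ), (∀ y ∈ K, op σ y = y) → Stable σ K :=
    fun K hK y hy => by rw [hK y hy]; exact hy
  induction d with
  | zero => exact fun _ _ _ => Nat.zero_le _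
  | succ d ih =>
    intro K hK hd
    have hne : K ≠ ⊥ := by
      rintro rfl
      rw [finrank_bot] at hd
      omega
    obtain ⟨v, hv, hv0⟩ := Submodule.exists_mem_ne_zero_of_ne_bot hne
    obtain ⟨K', hK'⟩ := Submodule.exists_isCompl (Submodule.span ℚ {(⟨v, hv⟩ : K)})
    have hv1 : Module.finrank ℚ (Submodule.span ℚ {(⟨v, hv⟩ : K)}) = 1 := by
      refine finrank_span_singleton ?_
      intro h
      exact hv0 (congrArg Subtype.val h)
    have h1 := Submodule.finrank_add_eq_of_isCompl hK'
    have h2 : Module.finrank ℚ (K'.map K.subtype) = d := by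
      rw [Submodule.finrank_map_subtype_eq]
      omega
    have hle : K'.map K.subtype ≤ K := Submodule.map_subtype_le K K'
    have hlt : K'.map K.subtype < K := by
      refine lt_of_le_of_ne hle fun h => ?_
      rw [h] at h2
      omega
    have h3 := ih (K'.map K.subtype) (fun y hy => hK y (hle hy)) h2
    have h4 := rk_lt (hst _ fun y hy => hK y (hle hy)) (hst K hK) hlt
    omega

/-- The length of the module in terms of representatives of the cycles. -/
theorem length_le (σ : Equiv.Perm ι) (S : Finset ι) (L : ι → ℕ) (hL : ∀ k ∈ S, 0 < L k)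
    (hper : ∀ k ∈ S, (σ ^ L k) k = k) (hS : ∀ j, ∃ k ∈ S, ∃ t : ℕ, (σ ^ t) j = k) :
    Module.length ℚ[X] (Md σ) ≤ (∑ k ∈ S, (L k).divisors.card : ℕ) := by
  let v : ι → Md σ := fun k => el σ (Pi.single k 1)
  have hkill : ∀ k ∈ S, (X ^ L k - 1 : ℚ[X]) • v k = 0 := by
    intro k hk
    have h1 : (X ^ L k - 1 : ℚ[X]) • v k = (X ^ L k : ℚ[X]) • v k - v k := by
      rw [sub_smul, one_smul]
    have h2 : (X ^ L k : ℚ[X]) • v k = el σ ((op σ ^ L k) (Pi.single k 1)) :=
      Module.AEval'.X_pow_smul_of (op σ) _ _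
    rw [h1, h2, sub_eq_zero]
    change el σ _ = el σ _
    congr 1
    funext i
    rw [op_pow_apply]
    by_cases hi : i = k
    · subst hi
      rw [hper _ hk]
    · have : (σ ^ L k) i ≠ k := by
        intro h
        apply hi
        apply (σ ^ L k).injective
        rw [h, hper k hk]
      rw [Pi.single_eq_of_ne this, Pi.single_eq_of_ne hi]
  let N : S → Submodule ℚ[X] (Md σ) := fun k => Submodule.span ℚ[X] {v k}
  let F : (Π k : S, N k) →ₗ[ℚ[X]] Md σ :=
    LinearMap.lsum ℚ[X] (fun k : S => N k) ℚ[X] (fun k => (N k).subtype)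
  have hsurj : Function.Surjective F := by
    rw [← LinearMap.range_eq_top, eq_top_iff]
    have hN : ∀ k ∈ S, v k ∈ LinearMap.range F := by
      intro k hk
      refine ⟨Pi.single ⟨k, hk⟩ ⟨v k, Submodule.mem_span_singleton_self _⟩, ?_⟩
      simp only [F, LinearMap.lsum_apply, LinearMap.coe_sum, Finset.sum_apply,
        LinearMap.comp_apply, LinearMap.proj_apply]
      rw [Finset.sum_eq_single (⟨k, hk⟩ : S)]
      · rw [Pi.single_eq_same]
        rfl
      · intro b _ hb
        rw [Pi.single_eq_of_ne hb, map_zero]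
      · intro h
        exact absurd (Finset.mem_univ _) h
    have hall : ∀ j, v j ∈ LinearMap.range F := by
      intro j
      obtain ⟨k, hk, t, ht⟩ := hS j
      have h2 : (X ^ t : ℚ[X]) • v k = v j := by
        have h3 : (X ^ t : ℚ[X]) • v k = el σ ((op σ ^ t) (Pi.single k 1)) :=
          Module.AEval'.X_pow_smul_of (op σ) _ _
        rw [h3]
        change el σ _ = el σ _
        congr 1
        funext i
        rw [op_pow_apply]
        by_cases hi : i = j
        · subst hi
          rw [ht]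
          simp
        · have : (σ ^ t) i ≠ k := by
            intro h
            apply hi
            apply (σ ^ t).injective
            rw [h, ht]
          rw [Pi.single_eq_of_ne this, Pi.single_eq_of_ne hi]
      rw [← h2]
      exact Submodule.smul_mem _ _ (hN k hk)
    intro z _
    obtain ⟨y, rfl⟩ := (el σ).surjective z
    have hy : y = ∑ j, y j • (Pi.single j 1 : ι → ℚ) := by
      funext i
      simp [Finset.sum_apply, Pi.single_apply]
    rw [hy, map_sum]
    refine Submodule.sum_mem _ fun j _ => ?_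
    rw [map_smul]
    have : y j • el σ (Pi.single j 1) = (C (y j) : ℚ[X]) • v j :=
      (Module.AEval.C_smul (op σ) (y j) (v j)).symm
    rw [this]
    exact Submodule.smul_mem _ _ (hall j)
  calc Module.length ℚ[X] (Md σ) ≤ Module.length ℚ[X] (Π k : S, N k) :=
        Module.length_le_of_surjective F hsurj
    _ = ∑ k : S, Module.length ℚ[X] (N k) := Module.length_pi_of_fintype ℚ[X] _
    _ ≤ ∑ k : S, ((L k).divisors.card : ℕ∞) :=
        Finset.sum_le_sum fun k _ => length_span_le_divisors (hL k k.2) (hkill k k.2)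
    _ = ((∑ k : S, (L k).divisors.card : ℕ) : ℕ∞) := by rw [Nat.cast_sum]
    _ = ((∑ k ∈ S, (L k).divisors.card : ℕ) : ℕ∞) := by
        rw [Finset.sum_coe_sort S (fun k => (L k).divisors.card)]

omit [DecidableEq ι] in
/-- Subspaces fixed pointwise have dimension at most the number of representatives. -/
theorem finrank_le_card (σ : Equiv.Perm ι) (S : Finset ι)
    (hS : ∀ j, ∃ k ∈ S, ∃ t : ℕ, (σ ^ t) j = k) {K : Submodule ℚ (ι → ℚ)}
    (hK : ∀ y ∈ K, op σ y = y) : Module.finrank ℚ K ≤ S.card := by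
  have hpow : ∀ y ∈ K, ∀ (t : ℕ) (j : ι), y ((σ ^ t) j) = y j := by
    intro y hy t
    induction t with
    | zero => intro j; rfl
    | succ t ih =>
      intro j
      rw [pow_succ, Equiv.Perm.mul_apply, ih]
      exact congrFun (hK y hy) j
  let F : K →ₗ[ℚ] (S → ℚ) :=
    { toFun := fun y k => y.1 k
      map_add' := fun _ _ => rfl
      map_smul' := fun _ _ => rfl }
  have hF : Function.Injective F := by
    intro y z hyz
    refine Subtype.ext (funext fun j => ?_)
    obtain ⟨k, hk, t, ht⟩ := hS j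
    rw [← hpow y y.2 t j, ← hpow z z.2 t j, ht]
    exact congrFun hyz ⟨k, hk⟩
  have := LinearMap.finrank_le_finrank_of_injective hF
  rwa [Module.finrank_fintype_fun_eq_card, Fintype.card_coe] at this

end Perm

end Vale.Agent.P344.H169
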