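import Vale.Agent.P344.H169.Irr
import Vale.Agent.P344.H169.Len
import Vale.Agent.P344.H518.Scal

/-!
# Multiplications by irrational constants in circuits for the discrete Fourier transform
-/

namespace Vale.Agent.P344.H169

open Polynomial Finset

variable {n : ℕ}

/-- Galois conjugation of a rational value of the bilinear form. -/
theorem conj_bil {ζ : ℂ} (hn : 0 < n) (hζ : IsPrimitiveRoot ζ n) {g : ℕ} (hg : g.Coprime n)
    (y x : Fin n → ℚ) (q : ℚ)
    (h : ∑ j : Fin n, (y j : ℂ) * ∑ k : Fin n, (x k : ℂ) * ζ ^ ((j : ℕ) * k) = q) :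
    ∑ j : Fin n, (y j : ℂ) * ∑ k : Fin n, (x k : ℂ) * (ζ ^ g) ^ ((j : ℕ) * k) = q := by
  set P : ℚ[X] := ∑ j : Fin n, Polynomial.C (y j) *
    ∑ k : Fin n, Polynomial.C (x k) * X ^ ((j : ℕ) * k) - Polynomial.C q with hP
  have haev : ∀ z : ℂ, aeval z P =
      ∑ j : Fin n, (y j : ℂ) * ∑ k : Fin n, (x k : ℂ) * z ^ ((j : ℕ) * k) - q := by
    intro z
    simp [hP, map_sum]
  have h1 : aeval ζ P = 0 := by rw [haev, h, sub_self]
  have h2 := minpoly.dvd ℚ ζ h1
  rw [← Polynomial.cyclotomic_eq_minpoly_rat hζ hn,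
    Polynomial.cyclotomic_eq_minpoly_rat (hζ.pow_of_coprime g hg) hn] at h2
  obtain ⟨Q, hQ⟩ := h2
  have h3 : aeval (ζ ^ g) P = 0 := by rw [hQ, map_mul, minpoly.aeval, zero_mul]
  rw [haev] at h3
  exact sub_eq_zero.1 h3

theorem bil_eq (y x : Fin n → ℚ) : bil (dftMat n) y x = ∑ j : Fin n, (y j : ℂ) *
    ∑ k : Fin n, (x k : ℂ) * Complex.exp (2 * Real.pi * Complex.I / n) ^ ((j : ℕ) * k) := by
  simp only [bil, ev_apply]
  rfl

/-- The subspaces `orthQ` are stable under multiplication of the index by a unit. -/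
theorem stable_orthQ (hn : 0 < n) {g : ℕ} (hg : g.Coprime n) {σ : Equiv.Perm (Fin n)}
    (hσ : ∀ j : Fin n, ((σ j : Fin n) : ℕ) ≡ g * j [MOD n]) (V : Submodule ℚ (Fin n → ℚ)) :
    Stable σ (orthQ (dftMat n) V) := by
  have hζ := Complex.isPrimitiveRoot_exp n hn.ne'
  intro y hy x hx
  obtain ⟨q, hq⟩ := hy x hx
  refine ⟨q, ?_⟩
  rw [bil_eq] at hq ⊢
  set ζ := Complex.exp (2 * Real.pi * Complex.I / n) with hζd
  -- the inverse of `g`
  obtain ⟨g', hg'⟩ : ∃ g' : ℕ, g * g' ≡ 1 [MOD n] := by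
    rcases Nat.lt_or_ge 1 n with h1 | h1
    · exact Nat.exists_mul_mod_eq_one_of_coprime hg h1 |>.imp fun m hm => by
        have : g * m % n = 1 := hm.2
        rw [Nat.ModEq, this, Nat.mod_eq_of_lt h1]
    · have : n = 1 := by omega
      subst this
      exact ⟨1, Nat.modEq_one⟩
  have hg'c : g'.Coprime n := by
    have h1 : (g * g').Coprime n := by
      rw [Nat.Coprime, hg'.gcd_eq]
      simp
    exact Nat.Coprime.coprime_mul_left h1
  have hc := conj_bil hn hζ hg'c y x q hq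
  rw [← hc, ← Equiv.sum_comp σ (fun j : Fin n => (y j : ℂ) *
    ∑ k : Fin n, (x k : ℂ) * (ζ ^ g') ^ ((j : ℕ) * (k : ℕ)))]
  refine Finset.sum_congr rfl fun j _ => ?_
  rw [op_apply]
  congr 1
  refine Finset.sum_congr rfl fun k _ => ?_
  congr 1
  rw [← pow_mul]
  have hpm : ∀ a b : ℕ, a ≡ b [MOD n] → ζ ^ a = ζ ^ b := by
    intro a b hab
    rw [← Nat.mod_add_div a n, ← Nat.mod_add_div b n, pow_add, pow_add, pow_mul, pow_mul,
      hζ.pow_eq_one, one_pow, one_pow, hab]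
  apply hpm
  have h1 : g' * ((σ j : Fin n) : ℕ) ≡ (j : ℕ) [MOD n] := by
    have h2 : g' * ((σ j : Fin n) : ℕ) ≡ g' * (g * j) [MOD n] := (hσ j).mul_left g'
    have h3 : g' * (g * (j : ℕ)) ≡ 1 * (j : ℕ) [MOD n] := by
      rw [← mul_assoc, mul_comm g' g]
      exact hg'.mul_right j
    rw [one_mul] at h3
    exact h2.trans h3
  rw [← mul_assoc]
  exact (h1.mul_right k).symm

/-- Rational vectors with rational transform: the dimension is at most the number of divisors. -/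
theorem finrank_le_divisors (hn : 0 < n) {K : Submodule ℚ (Fin n → ℚ)}
    (hK : ∀ x ∈ K, ∀ j, ∃ q : ℚ, ev (dftMat n j) x = q) :
    Module.finrank ℚ K ≤ n.divisors.card := by
  have hζ := Complex.isPrimitiveRoot_exp n hn.ne'
  let φ : K →ₗ[ℚ] (n.divisors → ℚ) :=
    { toFun := fun z d => z.1 ⟨(d : ℕ) % n, Nat.mod_lt _ hn⟩
      map_add' := fun _ _ => rfl
      map_smul' := fun _ _ => rfl }
  have hφ : Function.Injective φ := by
    rw [← LinearMap.ker_eq_bot, LinearMap.ker_eq_bot']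
    rintro ⟨z, hz⟩ h0
    have hrat : ∀ j : ℕ, j < n → ∃ q : ℚ, ∑ k : Fin n, (z k : ℂ) *
        Complex.exp (2 * Real.pi * Complex.I / n) ^ ((k : ℕ) * j) = q := by
      intro j hj
      obtain ⟨q, hq⟩ := hK z hz ⟨j, hj⟩
      refine ⟨q, ?_⟩
      rw [← hq, ev_apply]
      refine Finset.sum_congr rfl fun k _ => ?_
      rw [mul_comm (k : ℕ) j]
      rfl
    refine Subtype.ext (funext fun k => ?_)
    obtain ⟨g, hg, hgk⟩ := H518.exists_unit_mul hn (k : ℕ)
    have hdiv : Nat.gcd (k : ℕ) n ∈ n.divisors :=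
      Nat.mem_divisors.2 ⟨Nat.gcd_dvd_right _ _, hn.ne'⟩
    have h1 := congrFun h0 ⟨Nat.gcd (k : ℕ) n, hdiv⟩
    have h2 := H518.inv_of_rat hn hζ z hrat hg ⟨Nat.gcd (k : ℕ) n % n, Nat.mod_lt _ hn⟩ k (by
      refine Nat.ModEq.trans ?_ hgk
      exact Nat.ModEq.mul_left g (Nat.mod_modEq _ _))
    change z k = 0
    rw [h2]
    exact h1
  have h1 := LinearMap.finrank_le_finrank_of_injective hφ
  rwa [Module.finrank_fintype_fun_eq_card, Fintype.card_coe] at h1

/-- The simple bound. -/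
theorem irr_ge_simple (hn : 0 < n) (C : Circuit (Fin n) (Fin n)) (hC : C.Comp (dftMat n)) :
    n ≤ C.irr.card + n.divisors.card := by
  classical
  obtain ⟨f, hf, hout⟩ := hC
  obtain ⟨V, _, hV, _, h, _⟩ := potential hf (A := dftMat n) hout (rk 1)
    (fun V V' _ h => rk_lt (fun _ hy => hy) (fun _ hy => hy) h)
  have := finrank_le_divisors hn hV
  rw [Fintype.card_fin] at h
  omega

/-- **Multiplications by irrational constants.** -/
theorem irr_ge (hn : 0 < n) (C : Circuit (Fin n) (Fin n)) (hC : C.Comp (dftMat n)) {g : ℕ}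
    (hg : g.Coprime n) {σ : Equiv.Perm (Fin n)}
    (hσ : ∀ j : Fin n, ((σ j : Fin n) : ℕ) ≡ g * j [MOD n]) (S : Finset (Fin n))
    (L : Fin n → ℕ) (hL : ∀ k ∈ S, 0 < L k) (hper : ∀ k ∈ S, (σ ^ L k) k = k)
    (hS : ∀ j, ∃ k ∈ S, ∃ t : ℕ, (σ ^ t) j = k) :
    2 * n ≤ C.irr.card + S.card + ∑ k ∈ S, (L k).divisors.card := by
  classical
  obtain ⟨f, hf, hout⟩ := hC
  have hζ := Complex.isPrimitiveRoot_exp n hn.ne'
  obtain ⟨V, W, hV, hW, _, hpot⟩ := potential hf (A := dftMat n) hout (rk σ)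
    (fun V V' _ h => rk_lt (stable_orthQ hn hg hσ V') (stable_orthQ hn hg hσ V) h)
  have hfix : ∀ z : Fin n → ℚ, (∀ j : ℕ, j < n → ∃ q : ℚ, ∑ k : Fin n, (z k : ℂ) *
      Complex.exp (2 * Real.pi * Complex.I / n) ^ ((k : ℕ) * j) = q) → op σ z = z := by
    intro z hz
    funext j
    exact H518.inv_of_rat hn hζ z hz hg j (σ j) (hσ j).symm
  have hVfix : ∀ x ∈ V, op σ x = x := by
    intro x hx
    refine hfix x fun j hj => ?_
    obtain ⟨q, hq⟩ := hV x hx ⟨j, hj⟩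
    refine ⟨q, ?_⟩
    rw [← hq, ev_apply]
    refine Finset.sum_congr rfl fun k _ => ?_
    rw [mul_comm (k : ℕ) j]
    rfl
  have hTfix : ∀ y ∈ orthQ (dftMat n) ⊤, op σ y = y := by
    intro y hy
    refine hfix y fun k hk => ?_
    obtain ⟨q, hq⟩ := hy (Pi.single ⟨k, hk⟩ 1) trivial
    refine ⟨q, ?_⟩
    rw [← hq]
    simp only [bil, ev_apply]
    refine Finset.sum_congr rfl fun j _ => ?_
    congr 1
    rw [Finset.sum_eq_single (⟨k, hk⟩ : Fin n)]
    · simp [dftMat]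
    · intro b _ hb
      simp [Pi.single_eq_of_ne hb]
    · intro h
      exact absurd (Finset.mem_univ _) h
  have h1 := finrank_le_card σ S hS hVfix
  have h2 : Module.finrank ℚ W ≤ rk σ (orthQ (dftMat n) ⊤) := by
    have hle : W ≤ orthQ (dftMat n) ⊤ := fun y hy x _ => hW y hy x
    exact (Submodule.finrank_mono hle).trans (finrank_le_rk _ _ hTfix rfl)
  have h3 := rk_le σ (orthQ (dftMat n) V) (length_le σ S L hL hper hS)
  rw [Fintype.card_fin] at hpot
  omega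

end Vale.Agent.P344.H169
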